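import Mathlib

/-!
# Sobolev homeomorphisms of three dimensional domains and their smooth approximation
-/

namespace Vale.Agent.P073.Squeeze

open MeasureTheory Set Metric
open scoped ENNReal

/-- Three dimensional Euclidean space. -/
abbrev E3 := EuclideanSpace ℝ (Fin 3)

/-- Derivative matrices. -/
abbrev Mat3 := E3 →L[ℝ] E3

/-- A smooth bijection from `Ω` onto `Λ` with smooth inverse. -/
def IsDiffeo (g : E3 → E3) (Ω Λ : Set E3) : Prop :=
  BijOn g Ω Λ ∧ ContDiffOn ℝ (⊤ : ℕ∞) g Ω ∧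
    ∃ g' : E3 → E3, ContDiffOn ℝ (⊤ : ℕ∞) g' Λ ∧ InvOn g' g Ω Λ

/-- A continuous bijection from `Ω` onto `Λ` with continuous inverse. -/
def IsHomeo (f : E3 → E3) (Ω Λ : Set E3) : Prop :=
  BijOn f Ω Λ ∧ ContinuousOn f Ω ∧ ∃ f' : E3 → E3, ContinuousOn f' Λ ∧ InvOn f' f Ω Λ

/-- The two sides of the integration by parts formula against a test function `φ`. -/
def PartsFormula (φ : E3 → ℝ) (f : E3 → E3) (G : E3 → Mat3) (v : E3) : Prop :=
  ∫ x, fderiv ℝ φ x v • f x = -∫ x, φ x • G x v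

/-- `G` is the weak derivative of `f` on `Ω`. -/
def HasWeakDeriv (Ω : Set E3) (f : E3 → E3) (G : E3 → Mat3) : Prop :=
  ∀ φ : E3 → ℝ, ContDiff ℝ (⊤ : ℕ∞) φ → HasCompactSupport φ →
    tsupport φ ⊆ Ω → ∀ v, PartsFormula φ f G v

/-- The integral over `Ω` of the `p`-th power of the Euclidean norm. -/
noncomputable def vecEnergy (p : ℝ) (Ω : Set E3) (h : E3 → E3) : ℝ≥0∞ :=
  ∫⁻ x in Ω, ‖h x‖ₑ ^ p

/-- The integral over `Ω` of the `p`-th power of the operator norm. -/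
noncomputable def matEnergy (p : ℝ) (Ω : Set E3) (H : E3 → Mat3) : ℝ≥0∞ :=
  ∫⁻ x in Ω, ‖H x‖ₑ ^ p

/-- Almost everywhere strongly measurable on `Ω`. -/
def IsMeasurableOn (Ω : Set E3) (H : E3 → Mat3) : Prop :=
  AEStronglyMeasurable H (volume.restrict Ω)

/-- A `W^{1,p}` homeomorphism of `Ω` onto `Λ`, with weak derivative `G`. -/
def IsSobolevHomeo (p : ℝ) (Ω Λ : Set E3) (f : E3 → E3) (G : E3 → Mat3) : Prop :=
  IsHomeo f Ω Λ ∧ IsMeasurableOn Ω G ∧ HasWeakDeriv Ω f G ∧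
    vecEnergy p Ω f < ∞ ∧ matEnergy p Ω G < ∞

/-- The difference of two derivatives. -/
noncomputable def derivDiff (g : E3 → E3) (G : E3 → Mat3) (x : E3) : Mat3 := fderiv ℝ g x - G x

/-- Approximable in `W^{1,p}` by diffeomorphisms of `Ω` onto the same `Λ`. -/
def Approximable (p : ℝ) (Ω Λ : Set E3) (f : E3 → E3) (G : E3 → Mat3) : Prop :=
  ∀ ε > (0 : ℝ≥0∞), ∃ g, IsDiffeo g Ω Λ ∧ matEnergy p Ω (fderiv ℝ g) < ∞ ∧
    vecEnergy p Ω (fun x => g x - f x) + matEnergy p Ω (derivDiff g G) < ε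

/-- Finitely many disjoint closed balls in `Ω` of total volume below `δ`. -/
def IsBallFamily (Ω : Set E3) (δ : ℝ≥0∞) {n : ℕ} (c : Fin n → E3) (r : Fin n → ℝ) : Prop :=
  (∀ i, 0 < r i) ∧ (∀ i, closedBall (c i) (r i) ⊆ Ω) ∧
    Pairwise (fun i j => Disjoint (closedBall (c i) (r i)) (closedBall (c j) (r j))) ∧
    volume (⋃ i, closedBall (c i) (r i)) < δ

/-- The maps `g` and `f` agree on `Ω` outside the concentric eighths of the balls. -/
def AgreeOutside (Ω : Set E3) (g f : E3 → E3) {n : ℕ} (c : Fin n → E3) (r : Fin n → ℝ) : Prop :=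
  ∀ x ∈ Ω, (∀ i, x ∉ ball (c i) (r i / 8)) → g x = f x

/-- For every `δ` there is a diffeomorphism of `Ω` onto `Λ` that agrees with `f` outside the
concentric eighths of finitely many disjoint closed balls in `Ω` of total volume below `δ`. No
bound on its derivative is asked for. -/
def SmoothableInSmallBalls (Ω Λ : Set E3) (f : E3 → E3) : Prop :=
  ∀ δ > (0 : ℝ≥0∞), ∃ (g : E3 → E3) (n : ℕ) (c : Fin n → E3) (r : Fin n → ℝ),
    IsDiffeo g Ω Λ ∧ IsBallFamily Ω δ c r ∧ AgreeOutside Ω g f c r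

end Vale.Agent.P073.Squeeze
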