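import Vale.Agent.P073.Squeeze.Profile
import Vale.Agent.P073.Squeeze.Defs

/-!
# The squeezing diffeomorphisms of space
-/

namespace Vale.Agent.P073.Squeeze

open Real Filter Topology Set Metric
open scoped RealInnerProductSpace

/-- The radial map. -/
noncomputable def rad (ε k : ℝ) (z : E3) : E3 := fac ε k (‖z‖ ^ 2) • z

/-- Its derivative. -/
noncomputable def radD (ε k : ℝ) (z : E3) : E3 →L[ℝ] E3 :=
  fac ε k (‖z‖ ^ 2) • ContinuousLinearMap.id ℝ E3 +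
    ((2 * facD ε k (‖z‖ ^ 2)) • innerSL ℝ z).smulRight z

theorem det_rankOne (a c : ℝ) (x : E3) :
    (a • ContinuousLinearMap.id ℝ E3 + (c • innerSL ℝ x).smulRight x).det =
      a ^ 2 * (a + c * ‖x‖ ^ 2) := by
  unfold ContinuousLinearMap.det
  rw [← LinearMap.det_toMatrix (EuclideanSpace.basisFun (Fin 3) ℝ).toBasis, Matrix.det_fin_three,
    EuclideanSpace.real_norm_sq_eq, Fin.sum_univ_three]
  simp [LinearMap.toMatrix_apply, EuclideanSpace.inner_single_right]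
  ring

theorem norm_rankOne_le (a c : ℝ) (x : E3) :
    ‖a • ContinuousLinearMap.id ℝ E3 + (c • innerSL ℝ x).smulRight x‖ ≤
      |a| + |c * ‖x‖ ^ 2| := by
  refine ContinuousLinearMap.opNorm_le_bound _ (by positivity) fun v => ?_
  simp only [add_apply, smul_apply, ContinuousLinearMap.id_apply,
    ContinuousLinearMap.smulRight_apply, innerSL_apply_apply, smul_eq_mul]
  refine (norm_add_le _ _).trans ?_
  rw [norm_smul, norm_smul, add_mul, Real.norm_eq_abs, Real.norm_eq_abs, abs_mul, abs_mul,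
    abs_of_nonneg (sq_nonneg ‖x‖)]
  have := abs_real_inner_le_norm x v
  calc |a| * ‖v‖ + |c| * |⟪x, v⟫| * ‖x‖ ≤ |a| * ‖v‖ + |c| * (‖x‖ * ‖v‖) * ‖x‖ := by gcongr
    _ = |a| * ‖v‖ + |c| * ‖x‖ ^ 2 * ‖v‖ := by ring

variable {ε k : ℝ}

theorem rad_hasFDerivAt (hε : 0 < ε) (z : E3) : HasFDerivAt (rad ε k) (radD ε k z) z := by
  have h : 0 < ‖z‖ ^ 2 + ε := by positivity
  have h1 := (fac_hasDerivAt (k := k) h).comp_hasFDerivAt z (hasFDerivAt_id (𝕜 := ℝ) z).norm_sq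
  refine (h1.smul (hasFDerivAt_id (𝕜 := ℝ) z)).congr_fderiv ?_
  ext v i
  simp [radD]
  ring_nf
  simp

theorem rad_contDiff (hε : 0 < ε) {n : ℕ∞} : ContDiff ℝ n (rad ε k) :=
  contDiff_iff_contDiffAt.2 fun z =>
    ((fac_contDiffAt (show 0 < ‖z‖ ^ 2 + ε by positivity)).comp z
      (contDiff_norm_sq ℝ).contDiffAt).smul contDiffAt_id

theorem rad_det (hε : 0 < ε) (hk : 0 < k) (hk1 : k ≤ 1) (z : E3) :
    (radD ε k z).det = fac ε k (‖z‖ ^ 2) ^ 2 *
      (fac ε k (‖z‖ ^ 2) + 2 * ‖z‖ ^ 2 * facD ε k (‖z‖ ^ 2)) ∧ 0 < (radD ε k z).det := by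
  obtain ⟨-, hP, hm⟩ := radial_bounds hε hk hk1 (sq_nonneg ‖z‖)
  have h : (radD ε k z).det = fac ε k (‖z‖ ^ 2) ^ 2 *
      (fac ε k (‖z‖ ^ 2) + 2 * ‖z‖ ^ 2 * facD ε k (‖z‖ ^ 2)) := by
    rw [radD, det_rankOne]; ring
  exact ⟨h, h ▸ mul_pos (pow_pos hm 2) hP⟩

theorem rad_eq_self {z : E3} (hz : 1 ≤ ‖z‖) : rad ε k z = z := by
  simp [rad, fac, cut_eq_zero (show 1 ≤ ‖z‖ ^ 2 by nlinarith)]

theorem rad_bijective (hε : 0 < ε) (hk : 0 < k) (hk1 : k ≤ 1) :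
    Function.Bijective (rad ε k) := by
  let ψ : ℝ → ℝ := fun t => t * fac ε k (t ^ 2)
  have hd : ∀ t, HasDerivAt ψ (fac ε k (t ^ 2) + 2 * t ^ 2 * facD ε k (t ^ 2)) t := fun t => by
    refine ((hasDerivAt_id t).mul
      (HasDerivAt.comp (h := fun u : ℝ => u ^ 2) t
        (fac_hasDerivAt (k := k) (show 0 < t ^ 2 + ε by positivity))
        (hasDerivAt_pow 2 t))).congr_deriv ?_
    simp; ring
  have hmono : StrictMono ψ :=
    strictMono_of_deriv_pos fun t => by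
      rw [(hd t).deriv]; exact (radial_bounds hε hk hk1 (sq_nonneg t)).2.1
  have hnorm : ∀ z : E3, ‖rad ε k z‖ = ψ ‖z‖ := fun z => by
    rw [rad, norm_smul_of_nonneg (radial_bounds hε hk hk1 (sq_nonneg ‖z‖)).2.2.le, mul_comm]
  constructor
  · intro a b hab
    have h1 : ‖a‖ = ‖b‖ := hmono.injective (by rw [← hnorm, ← hnorm, hab])
    rw [rad, rad, h1] at hab
    exact smul_right_injective E3 (radial_bounds hε hk hk1 (sq_nonneg ‖b‖)).2.2.ne' hab
  · intro w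
    rcases eq_or_ne w 0 with rfl | hw
    · exact ⟨0, by simp [rad]⟩
    obtain ⟨t, ⟨ht0, -⟩, ht⟩ : ∃ t ∈ Icc 0 (max 1 ‖w‖), ψ t = ‖w‖ := by
      refine intermediate_value_Icc (by positivity)
        (continuous_iff_continuousAt.2 fun t => (hd t).continuousAt).continuousOn ⟨by simp [ψ], ?_⟩
      have h1 : 1 ≤ max 1 ‖w‖ ^ 2 := one_le_pow₀ (le_max_left _ _)
      simp [ψ, fac, cut_eq_zero h1]
    refine ⟨(t / ‖w‖) • w, ?_⟩
    have hn : ‖(t / ‖w‖) • w‖ = t := by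
      rw [norm_smul_of_nonneg (by positivity)]
      field_simp [norm_ne_zero_iff.2 hw]
    rw [rad, hn, smul_smul, show fac ε k (t ^ 2) * (t / ‖w‖) = ψ t / ‖w‖ by ring, ht,
      div_self (norm_ne_zero_iff.2 hw), one_smul]

/-- The radial map as a homeomorphism. -/
noncomputable def radHomeo (hε : 0 < ε) (hk : 0 < k) (hk1 : k ≤ 1) : E3 ≃ₜ E3 :=
  (Equiv.ofBijective _ (rad_bijective hε hk hk1)).toHomeomorphOfContinuousOpen
    (rad_contDiff (n := 1) hε).continuous <| by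
    refine isOpenMap_iff_nhds_le.2 fun z => ?_
    have hs : HasStrictFDerivAt (rad ε k) (radD ε k z) z :=
      (rad_contDiff (n := 1) hε).contDiffAt.hasStrictFDerivAt' (rad_hasFDerivAt hε z) one_ne_zero
    exact (HasStrictFDerivAt.map_nhds_eq_of_equiv
      (f' := (radD ε k z).toContinuousLinearEquivOfDetNeZero (rad_det hε hk hk1 z).2.ne') hs).ge

theorem radHomeo_symm_contDiff (hε : 0 < ε) (hk : 0 < k) (hk1 : k ≤ 1) {n : ℕ∞} :
    ContDiff ℝ n (radHomeo hε hk hk1).symm :=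
  (radHomeo hε hk hk1).contDiff_symm
    (f₀' := fun z => (radD ε k z).toContinuousLinearEquivOfDetNeZero (rad_det hε hk hk1 z).2.ne')
    (fun z => rad_hasFDerivAt hε z) (rad_contDiff hε)

/-- Squeezing diffeomorphisms supported in an arbitrary ball. -/
theorem exists_squeeze (p : ℝ) (hp : 1 ≤ p) (hp3 : p < 3) :
    ∃ C, 0 < C ∧ ∀ η > 0, ∀ (c : E3) (r : ℝ), 0 < r → ∃ H : E3 ≃ₜ E3,
      ContDiff ℝ (⊤ : ℕ∞) H ∧ ContDiff ℝ (⊤ : ℕ∞) H.symm ∧ (∀ x ∉ ball c r, H x = x) ∧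
      ∀ x ∈ ball c r, ‖fderiv ℝ H x‖ ^ p ≤ C * |(fderiv ℝ H x).det| ∧
        (H x ∈ ball c (r / 8) → ‖fderiv ℝ H x‖ ^ p ≤ η * |(fderiv ℝ H x).det|) := by
  set k := min 1 (3 - p) with hkdef
  have hk : 0 < k := lt_min one_pos (by linarith)
  have hk1 : k ≤ 1 := min_le_left _ _
  obtain ⟨C, hC, hdist⟩ := exists_distortion p hp hp3 hk hk1 (min_le_right _ _)
  refine ⟨C, hC, fun η hη c r hr => ?_⟩
  obtain ⟨ε, hε, hε1, hεη⟩ : ∃ ε : ℝ, 0 < ε ∧ ε ≤ 1 ∧ C * ε ^ ((3 - p) / 2) ≤ η := by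
    have ht : Tendsto (fun ε : ℝ => C * ε ^ ((3 - p) / 2)) (𝓝[>] 0) (𝓝 0) := by
      have h1 := ((continuousAt_rpow_const (0 : ℝ) ((3 - p) / 2) (Or.inr (by linarith))).tendsto
        ).const_mul C
      rw [zero_rpow (by linarith), mul_zero] at h1
      exact h1.mono_left nhdsWithin_le_nhds
    obtain ⟨ε, hεmem, hε⟩ := ((eventually_mem_set.2 (Ioo_mem_nhdsGT one_pos)).and
      (ht.eventually (eventually_le_nhds hη))
      : ∀ᶠ ε in 𝓝[>] (0 : ℝ), ε ∈ Ioo (0 : ℝ) 1 ∧ _).exists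
    exact ⟨ε, hεmem.1, hεmem.2.le, hε⟩
  let A : E3 ≃ₜ E3 := (Homeomorph.addRight (-c)).trans (Homeomorph.smulOfNeZero r⁻¹ (inv_ne_zero hr.ne'))
  let R := radHomeo hε hk hk1
  let H : E3 ≃ₜ E3 := (A.trans R).trans A.symm
  have hA : ∀ x, A x = r⁻¹ • (x + -c) := fun x => rfl
  have hA' : ∀ x, A.symm x = r • x + c := fun x => A.injective <| by
    rw [A.apply_symm_apply, hA, add_neg_cancel_right, smul_smul, inv_mul_cancel₀ hr.ne', one_smul]
  have hH : ∀ x, H x = r • rad ε k (r⁻¹ • (x + -c)) + c := fun x => hA' _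
  have hHs : ∀ x, H.symm x = r • R.symm (r⁻¹ • (x + -c)) + c := fun x => hA' _
  have hd : ∀ x, fderiv ℝ H x = radD ε k (r⁻¹ • (x + -c)) := fun x => by
    have h1 := (((rad_hasFDerivAt (k := k) hε (r⁻¹ • (x + -c))).comp x
      (((hasFDerivAt_id (𝕜 := ℝ) x).add_const (-c)).const_smul r⁻¹)).const_smul r).add_const c
    rw [funext hH]
    refine h1.fderiv.trans ?_
    ext v
    simp [smul_smul, hr.ne']
  refine ⟨H, ?_, ?_, fun x hx => ?_, fun x hx => ?_⟩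
  · rw [funext hH]
    exact (((rad_contDiff hε).comp ((contDiff_id.add contDiff_const).const_smul r⁻¹)).const_smul
      r).add contDiff_const
  · rw [funext hHs]
    exact (((radHomeo_symm_contDiff hε hk hk1).comp
      ((contDiff_id.add contDiff_const).const_smul r⁻¹)).const_smul r).add contDiff_const
  · rw [hH, rad_eq_self, smul_smul, mul_inv_cancel₀ hr.ne', one_smul, neg_add_cancel_right]
    rw [norm_smul, norm_inv, Real.norm_eq_abs, abs_of_pos hr, ← sub_eq_add_neg,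
      le_inv_mul_iff₀ hr, mul_one, ← dist_eq_norm]
    simpa using hx
  · rw [hd, hH]
    set z := r⁻¹ • (x + -c) with hz
    have hz1 : ‖z‖ ^ 2 ≤ 1 := by
      rw [sq_le_one_iff₀ (norm_nonneg _), hz, norm_smul, norm_inv, Real.norm_eq_abs,
        abs_of_pos hr, ← sub_eq_add_neg, inv_mul_le_one₀ hr, ← dist_eq_norm]
      exact (mem_ball.1 hx).le
    obtain ⟨h1, h2⟩ := hdist ε (‖z‖ ^ 2) hε hε1 (sq_nonneg _) hz1
    obtain ⟨hdet, hpos⟩ := rad_det hε hk hk1 z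
    obtain ⟨-, hP, hm⟩ := radial_bounds hε hk hk1 (sq_nonneg ‖z‖)
    have hn : ‖radD ε k z‖ ^ p ≤ (2 * fac ε k (‖z‖ ^ 2) +
        (fac ε k (‖z‖ ^ 2) + 2 * ‖z‖ ^ 2 * facD ε k (‖z‖ ^ 2))) ^ p := by
      refine rpow_le_rpow (norm_nonneg _) ((norm_rankOne_le _ _ _).trans ?_) (by linarith)
      rw [abs_of_pos hm, two_mul (fac ε k _), add_assoc (fac ε k _)]
      exact add_le_add le_rfl (abs_le.2 ⟨by linarith, by linarith⟩)
    rw [abs_of_pos hpos, hdet]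
    refine ⟨hn.trans h1, fun hin => hn.trans ((h2 ?_).trans ?_)⟩
    · rw [mem_ball, dist_eq_norm, add_sub_cancel_right, norm_smul_of_nonneg hr.le, rad,
        norm_smul_of_nonneg hm.le] at hin
      have : fac ε k (‖z‖ ^ 2) * ‖z‖ < 1 / 8 := lt_of_mul_lt_mul_left (by linarith) hr.le
      nlinarith [mul_nonneg hm.le (norm_nonneg z)]
    · exact mul_le_mul_of_nonneg_right hεη (mul_nonneg (sq_nonneg _) hP.le)

end Vale.Agent.P073.Squeeze
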