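import Vale.Agent.P073.Squeeze.Defs
import Vale.Agent.P073.Squeeze.Radial

/-!
# Below the dimension, singularities inside small balls cost nothing
-/

namespace Vale.Agent.P073.Squeeze

open MeasureTheory Set Metric Filter Topology
open scoped ENNReal

/-- Weak derivatives are classical where the map is smooth. -/
theorem weakDeriv_ae_eq {Ω V : Set E3} {f g : E3 → E3} {G : E3 → E3 →L[ℝ] E3}
    (hw : HasWeakDeriv Ω f G) (hV : IsOpen V) (hVΩ : V ⊆ Ω) (hg : ContDiffOn ℝ (⊤ : ℕ∞) g V)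
    (hfg : EqOn g f V) (hG : LocallyIntegrableOn G V) :
    ∀ᵐ x, x ∈ V → G x = fderiv ℝ g x := by
  have hD : ContinuousOn (fderiv ℝ g) V :=
    hg.continuousOn_fderiv_of_isOpen hV (by simp)
  have key : ∀ v : E3, ∀ᵐ x, x ∈ V → G x v - fderiv ℝ g x v = 0 := fun v => by
    have hDv : LocallyIntegrableOn (fun x => fderiv ℝ g x v) V :=
      (hD.clm_apply continuousOn_const).locallyIntegrableOn hV.measurableSet
    have hGv : LocallyIntegrableOn (fun x => G x v) V := fun x hx => by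
      obtain ⟨U, hU, hUi⟩ := hG x hx
      exact ⟨U, hU, (ContinuousLinearMap.apply ℝ E3 v).integrable_comp hUi⟩
    refine hV.ae_eq_zero_of_integral_contDiff_smul_eq_zero (hGv.sub hDv) fun φ hφ hφc hφV => ?_
    have hsupp : ∀ {F : Type} [Zero F] (ψ : E3 → F), tsupport ψ ⊆ V → ∀ x ∉ V, ψ x = 0 :=
      fun ψ h x hx => image_eq_zero_of_notMem_tsupport fun h' => hx (h h')
    have hprod : ContDiff ℝ (⊤ : ℕ∞) fun x => φ x • g x :=
      contDiff_iff_contDiffAt.2 fun x => by
        by_cases hx : x ∈ tsupport φ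
        · exact hφ.contDiffAt.smul (hg.contDiffAt (hV.mem_nhds (hφV hx)))
        · refine (contDiffAt_const (c := (0 : E3))).congr_of_eventuallyEq ?_
          filter_upwards [notMem_tsupport_iff_eventuallyEq.1 hx] with y hy
          simp [hy]
    have hI : ∀ {ψ : E3 → ℝ} {F : E3 → E3}, Continuous ψ → HasCompactSupport ψ → tsupport ψ ⊆ V →
        ContinuousOn F V → Integrable fun x => ψ x • F x := fun {ψ F} hψ hψc hψV hF => by
      refine Continuous.integrable_of_hasCompactSupport ?_ hψc.smul_right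
      exact continuous_of_tsupport fun x hx =>
        hψ.continuousAt.smul (hF.continuousAt (hV.mem_nhds (hψV (tsupport_smul_subset_left _ _ hx))))
    have hφd : Continuous fun x => fderiv ℝ φ x v :=
      (hφ.continuous_fderiv (by simp)).clm_apply continuous_const
    have hφdV : tsupport (fun x => fderiv ℝ φ x v) ⊆ V :=
      (tsupport_fderiv_apply_subset ℝ v).trans hφV
    have i1 := hI hφd (hφc.fderiv_apply ℝ v) hφdV hg.continuousOn
    have i2 := hI hφ.continuous hφc hφV (hD.clm_apply continuousOn_const (g := fun _ => v))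
    have h1 : ∫ x, φ x • fderiv ℝ g x v = -∫ x, fderiv ℝ φ x v • g x :=
      integral_smul_fderiv_eq_neg_fderiv_smul_of_integrable i1 i2
        (hI hφ.continuous hφc hφV hg.continuousOn) (fun x _ => (hφ.differentiable (by simp)) x)
        (fun x hx => (hg.contDiffAt (hV.mem_nhds (hφV hx))).differentiableAt (by simp))
    have h2 : ∫ x, fderiv ℝ φ x v • f x = -∫ x, φ x • G x v := hw φ hφ hφc (hφV.trans hVΩ) v
    have h3 : ∫ x, fderiv ℝ φ x v • g x = ∫ x, fderiv ℝ φ x v • f x :=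
      integral_congr_ae (Eventually.of_forall fun x => by
        by_cases hx : x ∈ V
        · simp [hfg hx]
        · simp [hsupp _ hφdV x hx])
    have i3 : Integrable fun x => φ x • G x v :=
      (integrableOn_iff_integrable_of_support_subset
        ((Function.support_smul_subset_left _ _).trans (subset_tsupport φ))).1
        ((hGv.integrableOn_compact_subset hφV hφc).continuousOn_smul hφ.continuous.continuousOn hφc)
    simp only [smul_sub]
    rw [integral_sub i3 i2, h1, h3, h2, neg_neg, sub_self]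
  have hb := ae_all_iff.2 fun i => key (EuclideanSpace.basisFun (Fin 3) ℝ i)
  filter_upwards [hb] with x hx hxV
  exact ContinuousLinearMap.coe_injective
    ((EuclideanSpace.basisFun (Fin 3) ℝ).toBasis.ext fun i => by simpa [sub_eq_zero] using hx i hxV)

/-- Replace a diffeomorphism inside balls by squeezed ones. -/
theorem exists_squeezed (p : ℝ) (hp : 1 ≤ p) (hp3 : p < 3) : ∃ C : ℝ, 0 < C ∧
    ∀ {Ω Λ : Set E3}, IsOpen Ω → ∀ {g₀ : E3 → E3}, IsDiffeo g₀ Ω Λ → ∀ {n : ℕ} {c : Fin n → E3}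
    {r : Fin n → ℝ}, (∀ i, 0 < r i) → (∀ i, closedBall (c i) (r i) ⊆ Ω) →
    Pairwise (fun i j => Disjoint (closedBall (c i) (r i)) (closedBall (c j) (r j))) →
    ∀ η > (0 : ℝ), ∀ s : Finset (Fin n), ∃ g, IsDiffeo g Ω Λ ∧
      (∀ x, (∀ i ∈ s, x ∉ ball (c i) (r i)) → g x = g₀ x) ∧
      ∀ i ∈ s, ∫⁻ x in ball (c i) (r i), ‖fderiv ℝ g x‖ₑ ^ p ≤ ENNReal.ofReal C *
        (∫⁻ x in ball (c i) (r i) \ ball (c i) (r i / 8), ‖fderiv ℝ g₀ x‖ₑ ^ p) +
          ENNReal.ofReal η := by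
  obtain ⟨C, hC, hsq⟩ := exists_squeeze p hp hp3
  refine ⟨C, hC, fun {Ω Λ} hΩ {g₀} hg₀ {n c r} hr hcΩ hdis η hη s => ?_⟩
  induction s using Finset.induction_on with
  | empty => exact ⟨g₀, hg₀, fun _ _ => rfl, fun i hi => absurd hi (Finset.notMem_empty i)⟩
  | insert a s ha ih =>
    obtain ⟨g, ⟨hgbij, hgs, g', hg's, hinv⟩, hgeq, hgest⟩ := ih
    set B := ball (c a) (r a) with hB
    have hBΩ : B ⊆ Ω := ball_subset_closedBall.trans (hcΩ a)
    have hout : ∀ x ∈ B, ∀ i ∈ s, x ∉ ball (c i) (r i) := fun x hx i hi hx' =>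
      (hdis (show a ≠ i from fun h => ha (h ▸ hi))).le_bot
        ⟨ball_subset_closedBall hx, ball_subset_closedBall hx'⟩
    have hgB : ∀ x ∈ B, fderiv ℝ g x = fderiv ℝ g₀ x := fun x hx =>
      Filter.EventuallyEq.fderiv_eq (by
        filter_upwards [isOpen_ball.mem_nhds hx] with y hy using hgeq y (hout y hy))
    set Φ : E3 → ℝ≥0∞ := fun y => ‖fderiv ℝ g₀ y‖ₑ ^ p with hΦ
    have hΦfin : ∫⁻ y in B, Φ y < ∞ := by
      obtain ⟨M, hM⟩ := (isCompact_closedBall (c a) (r a)).exists_bound_of_continuousOn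
        ((hg₀.2.1.continuousOn_fderiv_of_isOpen hΩ (by simp)).mono (hcΩ a))
      calc ∫⁻ y in B, Φ y ≤ ∫⁻ y in B, ENNReal.ofReal M ^ p :=
            setLIntegral_mono measurable_const fun y hy => by
              refine ENNReal.rpow_le_rpow ?_ (by linarith)
              rw [← ofReal_norm]
              exact ENNReal.ofReal_le_ofReal (hM y (ball_subset_closedBall hy))
        _ < ∞ := by
            rw [setLIntegral_const]
            exact ENNReal.mul_lt_top (ENNReal.rpow_lt_top_of_nonneg (by linarith) ENNReal.ofReal_ne_top)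
              measure_ball_lt_top
    set η' := η / ((∫⁻ y in B, Φ y).toReal + 1) with hη'
    have hη'0 : 0 < η' := by positivity
    have hη'le : ENNReal.ofReal η' * ∫⁻ y in B, Φ y ≤ ENNReal.ofReal η := by
      rw [← ENNReal.ofReal_toReal hΦfin.ne, ← ENNReal.ofReal_mul hη'0.le]
      refine ENNReal.ofReal_le_ofReal ?_
      have hnn := ENNReal.toReal_nonneg (a := ∫⁻ y in B, Φ y)
      rw [hη', div_mul_eq_mul_div, div_le_iff₀ (by linarith)]
      nlinarith
    obtain ⟨H, hH, hH', hHid, hHest⟩ := hsq η' hη'0 (c a) (r a) (hr a)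
    have hHB : ∀ x, H x ∈ B ↔ x ∈ B := fun x => by
      refine ⟨fun h => ?_, fun h => ?_⟩
      · by_contra hx
        rw [hHid x hx] at h
        exact hx h
      · by_contra hx
        have := H.injective (hHid _ hx)
        exact hx (by rwa [this])
    have hHΩ : ∀ x, H x ∈ Ω ↔ x ∈ Ω := fun x => by
      by_cases hx : x ∈ B
      · exact iff_of_true (hBΩ ((hHB x).2 hx)) (hBΩ hx)
      · rw [hHid x hx]
    have hmaps : MapsTo H Ω Ω := fun x hx => (hHΩ x).2 hx
    have hmaps' : MapsTo H.symm Ω Ω := fun x hx => (hHΩ _).1 (by rwa [H.apply_symm_apply])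
    refine ⟨g ∘ H, ⟨?_, hgs.comp hH.contDiffOn hmaps, H.symm ∘ g', hH'.comp_contDiffOn hg's,
      ?_, ?_⟩, fun x hx => ?_, fun i hi => ?_⟩
    · exact hgbij.comp ⟨hmaps, H.injective.injOn, fun y hy =>
        ⟨H.symm y, hmaps' hy, H.apply_symm_apply y⟩⟩
    · intro x hx
      simp [hinv.1 (hmaps hx)]
    · intro y hy
      simp [hinv.2 hy]
    · rw [Function.comp_apply, hHid x (hx a (Finset.mem_insert_self a s))]
      exact hgeq x fun i hi => hx i (Finset.mem_insert_of_mem hi)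
    · rcases Finset.mem_insert.1 hi with rfl | hi
      · have hdiff : ∀ x ∈ B, fderiv ℝ (g ∘ H) x =
            (fderiv ℝ g₀ (H x)).comp (fderiv ℝ H x) := fun x hx => by
          rw [fderiv_comp x ((hgs.contDiffAt (hΩ.mem_nhds (hBΩ ((hHB x).2 hx)))).differentiableAt
            (by simp)) ((hH.differentiable (by simp)) x), hgB _ ((hHB x).2 hx)]
        set A := ball (c i) (r i) \ ball (c i) (r i / 8)
        set W : E3 → ℝ≥0∞ := fun y =>
          A.indicator (fun y => ENNReal.ofReal C * Φ y) y + ENNReal.ofReal η' * Φ y with hW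
        have hpt : ∀ x ∈ B, ‖fderiv ℝ (g ∘ H) x‖ₑ ^ p ≤
            ENNReal.ofReal |(fderiv ℝ H x).det| * W (H x) := fun x hx => by
          have hp0 : 0 ≤ p := by linarith
          have h1 : ‖fderiv ℝ (g ∘ H) x‖ₑ ^ p ≤
              Φ (H x) * ENNReal.ofReal (‖fderiv ℝ H x‖ ^ p) := by
            rw [hdiff x hx, ← ENNReal.ofReal_rpow_of_nonneg (norm_nonneg _) hp0, ofReal_norm, hΦ,
              ← ENNReal.mul_rpow_of_nonneg _ _ hp0]
            refine ENNReal.rpow_le_rpow ?_ hp0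
            rw [← ofReal_norm, ← ofReal_norm, ← ofReal_norm,
              ← ENNReal.ofReal_mul (norm_nonneg _)]
            exact ENNReal.ofReal_le_ofReal (ContinuousLinearMap.opNorm_comp_le _ _)
          refine h1.trans ?_
          obtain ⟨hall, hin⟩ := hHest x hx
          by_cases hA : H x ∈ A
          · calc Φ (H x) * ENNReal.ofReal (‖fderiv ℝ H x‖ ^ p)
                ≤ Φ (H x) * ENNReal.ofReal (C * |(fderiv ℝ H x).det|) := by gcongr
              _ = ENNReal.ofReal |(fderiv ℝ H x).det| * (ENNReal.ofReal C * Φ (H x)) := by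
                  rw [ENNReal.ofReal_mul hC.le]; ring
              _ ≤ _ := by
                  refine mul_le_mul_right ?_ _
                  rw [hW]; simp only [indicator_of_mem hA]
                  exact le_self_add
          · have hin' : H x ∈ ball (c i) (r i / 8) := by
              by_contra h
              exact hA ⟨(hHB x).2 hx, h⟩
            calc Φ (H x) * ENNReal.ofReal (‖fderiv ℝ H x‖ ^ p)
                ≤ Φ (H x) * ENNReal.ofReal (η' * |(fderiv ℝ H x).det|) := by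
                  gcongr; exact hin hin'
              _ = ENNReal.ofReal |(fderiv ℝ H x).det| * (ENNReal.ofReal η' * Φ (H x)) := by
                  rw [ENNReal.ofReal_mul hη'0.le]; ring
              _ ≤ _ := by
                  refine mul_le_mul_right ?_ _
                  rw [hW]; exact le_add_self
        have himg : H '' B = B := by
          ext y
          refine ⟨?_, fun hy => ⟨H.symm y, (hHB _).1 (by rwa [H.apply_symm_apply]),
            H.apply_symm_apply y⟩⟩
          rintro ⟨x, hx, rfl⟩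
          exact (hHB x).2 hx
        have hcv := lintegral_image_eq_lintegral_abs_det_fderiv_mul volume (s := B) (f := H)
          (f' := fderiv ℝ H) measurableSet_ball
          (fun x _ => ((hH.differentiable (by simp)) x).hasFDerivAt.hasFDerivWithinAt)
          H.injective.injOn W
        rw [himg] at hcv
        calc ∫⁻ x in B, ‖fderiv ℝ (g ∘ H) x‖ₑ ^ p
            ≤ ∫⁻ x in B, ENNReal.ofReal |(fderiv ℝ H x).det| * W (H x) :=
              setLIntegral_mono' measurableSet_ball hpt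
          _ = ∫⁻ y in B, W y := hcv.symm
          _ = ENNReal.ofReal C * (∫⁻ y in A, Φ y) + ENNReal.ofReal η' * ∫⁻ y in B, Φ y := by
              have hΦm : Measurable Φ := (measurable_fderiv ℝ g₀).enorm.pow_const p
              have hAm : MeasurableSet A := measurableSet_ball.diff measurableSet_ball
              rw [hW, lintegral_add_left ((hΦm.const_mul _).indicator hAm),
                lintegral_indicator hAm, Measure.restrict_restrict hAm,
                inter_eq_left.2 sdiff_subset, lintegral_const_mul _ hΦm, lintegral_const_mul _ hΦm]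
          _ ≤ _ := by gcongr
      · have heq : ∀ x ∈ ball (c i) (r i), fderiv ℝ (g ∘ H) x = fderiv ℝ g x := fun x hx =>
          Filter.EventuallyEq.fderiv_eq (by
            filter_upwards [isOpen_ball.mem_nhds hx] with y hy
            rw [Function.comp_apply, hHid y fun hy' => hout y hy' i hi hy])
        rw [setLIntegral_congr_fun measurableSet_ball fun x hx => by rw [heq x hx]]
        exact hgest i hi

theorem approximable_of_smoothable {p : ℝ} (hp : 1 ≤ p) (hp3 : p < 3) {Ω Λ : Set E3}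
    (hΩ : IsOpen Ω) (hΩb : Bornology.IsBounded Ω) (hΛb : Bornology.IsBounded Λ) {f : E3 → E3}
    {G : E3 → E3 →L[ℝ] E3} (hf : IsSobolevHomeo p Ω Λ f G)
    (hsm : SmoothableInSmallBalls Ω Λ f) : Approximable p Ω Λ f G := by
  intro ε₀ hε₀
  obtain ⟨ε, hε, hεtop, hεle⟩ : ∃ ε : ℝ≥0∞, 0 < ε ∧ ε ≠ ∞ ∧ ε ≤ ε₀ :=
    ⟨min ε₀ 1, lt_min hε₀ one_pos, ne_top_of_le_ne_top ENNReal.one_ne_top (min_le_right _ _),
      min_le_left _ _⟩
  obtain ⟨C, hC, hsq⟩ := exists_squeezed p hp hp3
  obtain ⟨⟨hbij, hfc, -⟩, hGm, hw, -, hGfin⟩ := hf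
  simp only [IsMeasurableOn] at hGm
  simp only [matEnergy] at hGfin
  have hp0 : 0 ≤ p := by linarith
  obtain ⟨R, hR⟩ := hΛb.exists_norm_le
  -- `G` is locally integrable
  haveI : IsFiniteMeasure (volume.restrict Ω) := ⟨by simpa using hΩb.measure_lt_top⟩
  have hG1 : IntegrableOn G Ω := by
    have hmem : MemLp G (ENNReal.ofReal p) (volume.restrict Ω) := by
      refine ⟨hGm, (eLpNorm_lt_top_iff_lintegral_rpow_enorm_lt_top ?_ ENNReal.ofReal_ne_top).2
        ?_⟩
      · simp; linarith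
      · rwa [ENNReal.toReal_ofReal hp0]
    exact hmem.integrable (by simp [hp])
  -- the tolerances
  set e := ε / 8 with he
  have he0 : 0 < e := ENNReal.div_pos hε.ne' (by simp)
  set K : ℝ≥0∞ := 2 ^ (p - 1) with hK
  have hK0 : K ≠ 0 := by simp [hK]
  have hKtop : K ≠ ∞ := ENNReal.rpow_ne_top_of_nonneg (by linarith) (by simp)
  obtain ⟨e₁, he₁, he₁C, he₁K⟩ : ∃ e₁ : ℝ≥0∞, 0 < e₁ ∧ K * (ENNReal.ofReal C * e₁) < e ∧
      K * e₁ < e := by
    have h1 : Tendsto (fun t => K * (ENNReal.ofReal C * t)) (𝓝[>] 0) (𝓝 0) := by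
      have := ENNReal.Tendsto.const_mul (a := K * ENNReal.ofReal C)
        (tendsto_id (α := ℝ≥0∞) (x := 𝓝 0)) (Or.inr (ENNReal.mul_ne_top hKtop ENNReal.ofReal_ne_top))
      simpa [mul_assoc] using this.mono_left (nhdsWithin_le_nhds (s := Ioi 0))
    have h2 : Tendsto (fun t => K * t) (𝓝[>] 0) (𝓝 0) := by
      have := ENNReal.Tendsto.const_mul (a := K) (tendsto_id (α := ℝ≥0∞) (x := 𝓝 0)) (Or.inr hKtop)
      simpa using this.mono_left (nhdsWithin_le_nhds (s := Ioi 0))
    obtain ⟨t, ht, ht1, ht2⟩ := ((eventually_mem_nhdsWithin (a := (0 : ℝ≥0∞)) (s := Ioi 0)).and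
      ((h1.eventually (gt_mem_nhds he0)).and (h2.eventually (gt_mem_nhds he0)))).exists
    exact ⟨t, ht, ht1, ht2⟩
  obtain ⟨δ, hδ, hδG⟩ := exists_pos_setLIntegral_lt_of_measure_lt hGfin.ne he₁.ne'
  set L : ℝ≥0∞ := ENNReal.ofReal (2 * R) ^ p with hL
  have hLtop : L ≠ ∞ := ENNReal.rpow_ne_top_of_nonneg hp0 ENNReal.ofReal_ne_top
  obtain ⟨δ', hδ', hδ'δ, hδ'L⟩ : ∃ δ' : ℝ≥0∞, 0 < δ' ∧ δ' ≤ δ ∧ L * δ' < e := by
    have h2 : Tendsto (fun t => L * t) (𝓝[>] 0) (𝓝 0) := by
      have := ENNReal.Tendsto.const_mul (a := L) (tendsto_id (α := ℝ≥0∞) (x := 𝓝 0)) (Or.inr hLtop)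
      simpa using this.mono_left (nhdsWithin_le_nhds (s := Ioi 0))
    obtain ⟨t, ht, ht1, ht2⟩ := ((eventually_mem_nhdsWithin (a := (0 : ℝ≥0∞)) (s := Ioi 0)).and
      (((eventually_le_nhds hδ).filter_mono nhdsWithin_le_nhds).and
        (h2.eventually (gt_mem_nhds he0)))).exists
    exact ⟨t, ht, ht1, ht2⟩
  obtain ⟨g₀, n, c, r, hg₀, ⟨hr, hcΩ, hdis, hvol⟩, hg₀f⟩ := hsm δ' hδ'
  obtain ⟨η, hη, hηe⟩ : ∃ η : ℝ, 0 < η ∧ K * ((n : ℝ≥0∞) * ENNReal.ofReal η) < e := by
    have h3 : Tendsto (fun t : ℝ => K * ((n : ℝ≥0∞) * ENNReal.ofReal t)) (𝓝[>] 0) (𝓝 0) := by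
      have := ENNReal.Tendsto.const_mul (a := K * n)
        ((ENNReal.continuous_ofReal.tendsto 0).mono_left (nhdsWithin_le_nhds (s := Ioi 0)))
        (Or.inr (ENNReal.mul_ne_top hKtop (ENNReal.natCast_ne_top n)))
      simpa [mul_assoc] using this
    obtain ⟨t, ht, ht1⟩ := ((eventually_mem_nhdsWithin (a := (0 : ℝ)) (s := Ioi 0)).and
      (h3.eventually (gt_mem_nhds he0))).exists
    exact ⟨t, ht, ht1⟩
  obtain ⟨g, hg, hgeq, hgest⟩ := hsq hΩ hg₀ hr hcΩ hdis η hη Finset.univ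
  refine ⟨g, hg, ?_⟩
  simp only [vecEnergy, matEnergy, derivDiff]
  set U := ⋃ i, closedBall (c i) (r i) with hU
  have hUc : IsClosed U := isClosed_iUnion_of_finite fun i => isClosed_closedBall
  have hUΩ : U ⊆ Ω := iUnion_subset hcΩ
  set V := Ω \ ⋃ i, closedBall (c i) (r i / 8) with hV
  have hVo : IsOpen V := hΩ.sdiff (isClosed_iUnion_of_finite fun i => isClosed_closedBall)
  have hGV := weakDeriv_ae_eq hw hVo sdiff_subset (hg₀.2.1.mono sdiff_subset)
    (fun x hx => hg₀f x hx.1 fun i hi => hx.2 (mem_iUnion.2 ⟨i, ball_subset_closedBall hi⟩))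
    (hG1.locallyIntegrableOn.mono_set sdiff_subset)
  -- outside the balls nothing changes
  have hout : ∀ x ∈ Ω \ U, g x = f x ∧ fderiv ℝ g x = fderiv ℝ g₀ x := by
    intro x hx
    have hev : g =ᶠ[𝓝 x] g₀ := by
      filter_upwards [hUc.isOpen_compl.mem_nhds hx.2] with y hy
      exact hgeq y fun i _ hi => hy (mem_iUnion.2 ⟨i, ball_subset_closedBall hi⟩)
    refine ⟨?_, hev.fderiv_eq⟩
    rw [hev.eq_of_nhds]
    exact hg₀f x hx.1 fun i hi => hx.2 (mem_iUnion.2
      ⟨i, closedBall_subset_closedBall (by linarith [hr i]) (ball_subset_closedBall hi)⟩)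
  have hU0 : ∫⁻ x in Ω, (‖g x - f x‖ₑ ^ p + ‖fderiv ℝ g x - G x‖ₑ ^ p) =
      ∫⁻ x in U, (‖g x - f x‖ₑ ^ p + ‖fderiv ℝ g x - G x‖ₑ ^ p) := by
    rw [← lintegral_inter_add_sdiff _ Ω hUc.measurableSet, inter_eq_right.2 hUΩ,
      setLIntegral_congr_fun_ae (hΩ.measurableSet.diff hUc.measurableSet) (g := fun _ => 0),
      lintegral_zero, add_zero]
    filter_upwards [hGV] with x hx hxU
    obtain ⟨h1, h2⟩ := hout x hxU
    have hxV : x ∈ V := ⟨hxU.1, fun h => hxU.2 (by
      obtain ⟨i, hi⟩ := mem_iUnion.1 h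
      exact mem_iUnion.2 ⟨i, closedBall_subset_closedBall (by linarith [hr i]) hi⟩)⟩
    simp [h1, h2, hx hxV, show 0 < p by linarith, ← ofReal_norm]
  -- the derivative energy on the balls
  have hball : ∀ i, (closedBall (c i) (r i) : Set E3) =ᵐ[volume] ball (c i) (r i) := fun i => by
    refine (ae_eq_set.2 ⟨?_, by simp [sdiff_eq_empty.2 ball_subset_closedBall]⟩)
    rw [closedBall_sdiff_ball]
    exact Measure.addHaar_sphere volume (c i) (r i)
  have hUsum : ∀ F : E3 → ℝ≥0∞, ∫⁻ x in U, F x = ∑ i, ∫⁻ x in ball (c i) (r i), F x := fun F => by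
    rw [hU, lintegral_iUnion (fun i => measurableSet_closedBall) hdis, tsum_fintype]
    exact Finset.sum_congr rfl fun i _ => setLIntegral_congr (hball i)
  have hDg : ∫⁻ x in U, ‖fderiv ℝ g x‖ₑ ^ p ≤
      ENNReal.ofReal C * e₁ + n * ENNReal.ofReal η := by
    rw [hUsum]
    refine (Finset.sum_le_sum fun i hi => hgest i hi).trans ?_
    rw [Finset.sum_add_distrib, ← Finset.mul_sum, Finset.sum_const, Finset.card_univ,
      Fintype.card_fin, nsmul_eq_mul]
    gcongr
    refine le_trans ?_ (hδG U ((Measure.restrict_apply_le _ _).trans_lt (hvol.trans_le hδ'δ))).le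
    rw [Measure.restrict_restrict hUc.measurableSet, inter_eq_left.2 hUΩ, hUsum]
    refine Finset.sum_le_sum fun i _ => ?_
    have hann : ∀ᵐ x, x ∈ ball (c i) (r i) \ ball (c i) (r i / 8) →
        ‖fderiv ℝ g₀ x‖ₑ ^ p = ‖G x‖ₑ ^ p := by
      have hs : ∀ᵐ x : E3, x ∉ sphere (c i) (r i / 8) :=
        measure_eq_zero_iff_ae_notMem.1 (Measure.addHaar_sphere volume (c i) (r i / 8))
      filter_upwards [hGV, hs] with x hx hxs hxA
      rw [hx ⟨hcΩ i (ball_subset_closedBall hxA.1), ?_⟩]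
      rw [mem_iUnion]
      rintro ⟨j, hj⟩
      rcases eq_or_ne i j with rfl | hij
      · exact hxs (closedBall_sdiff_ball (x := c i) ▸ ⟨hj, hxA.2⟩)
      · exact (hdis hij).le_bot ⟨ball_subset_closedBall hxA.1,
          closedBall_subset_closedBall (by linarith [hr j]) hj⟩
    rw [setLIntegral_congr_fun_ae (measurableSet_ball.diff measurableSet_ball) hann]
    exact lintegral_mono_set sdiff_subset
  have hGU : ∫⁻ x in U, ‖G x‖ₑ ^ p ≤ e₁ := by
    refine le_trans ?_ (hδG U ((Measure.restrict_apply_le _ _).trans_lt (hvol.trans_le hδ'δ))).le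
    rw [Measure.restrict_restrict hUc.measurableSet, inter_eq_left.2 hUΩ]
  have hfg : ∫⁻ x in U, ‖g x - f x‖ₑ ^ p ≤ L * δ' := by
    calc ∫⁻ x in U, ‖g x - f x‖ₑ ^ p ≤ ∫⁻ x in U, L :=
          setLIntegral_mono measurable_const fun x hx => by
            refine ENNReal.rpow_le_rpow ?_ hp0
            rw [← ofReal_norm]
            refine ENNReal.ofReal_le_ofReal ((norm_sub_le _ _).trans ?_)
            linarith [hR _ (hg.1.mapsTo (hUΩ hx)), hR _ (hbij.mapsTo (hUΩ hx))]
      _ ≤ L * δ' := by rw [setLIntegral_const]; gcongr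
  have hsplit : ∫⁻ x in U, ‖fderiv ℝ g x - G x‖ₑ ^ p ≤
      K * (∫⁻ x in U, ‖fderiv ℝ g x‖ₑ ^ p) + K * (∫⁻ x in U, ‖G x‖ₑ ^ p) := by
    have hDm : Measurable fun x => ‖fderiv ℝ g x‖ₑ ^ p := (measurable_fderiv ℝ g).enorm.pow_const p
    rw [← lintegral_const_mul' _ _ hKtop, ← lintegral_const_mul' _ _ hKtop,
      ← lintegral_add_left (hDm.const_mul K)]
    refine lintegral_mono fun x => ?_
    calc ‖fderiv ℝ g x - G x‖ₑ ^ p ≤ (‖fderiv ℝ g x‖ₑ + ‖G x‖ₑ) ^ p :=
          ENNReal.rpow_le_rpow enorm_sub_le hp0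
      _ ≤ K * (‖fderiv ℝ g x‖ₑ ^ p + ‖G x‖ₑ ^ p) := ENNReal.rpow_add_le_mul_rpow_add_rpow _ _ hp
      _ = _ := mul_add _ _ _
  have htot : ∫⁻ x in Ω, (‖g x - f x‖ₑ ^ p + ‖fderiv ℝ g x - G x‖ₑ ^ p) < ε := by
    have hgm : AEMeasurable (fun x => ‖g x - f x‖ₑ ^ p) (volume.restrict U) :=
      ((((hg.2.1.continuousOn.mono hUΩ).sub (hfc.mono hUΩ)).aemeasurable
        hUc.measurableSet).enorm).pow_const p
    rw [hU0, lintegral_add_left' hgm]
    calc (∫⁻ x in U, ‖g x - f x‖ₑ ^ p) + (∫⁻ x in U, ‖fderiv ℝ g x - G x‖ₑ ^ p)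
        ≤ L * δ' + (K * (ENNReal.ofReal C * e₁ + n * ENNReal.ofReal η) + K * e₁) :=
          add_le_add hfg (hsplit.trans (by gcongr))
      _ ≤ e + ((e + e) + e) := by
          rw [mul_add]
          gcongr
      _ < ε := by
          have h8 : e + ((e + e) + e) = ε / 2 := by
            rw [he, show ε / 8 + ((ε / 8 + ε / 8) + ε / 8) = 4 * (ε / 8) by ring, ← mul_div_assoc,
              show (8 : ℝ≥0∞) = 4 * 2 by norm_num, ENNReal.mul_div_mul_left _ _ (by simp) (by simp)]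
          rw [h8]
          exact ENNReal.half_lt_self hε.ne' hεtop
  refine ⟨?_, ?_⟩
  swap
  · refine lt_of_eq_of_lt (lintegral_add_left' ?_ _).symm (htot.trans_le hεle)
    exact ((((hg.2.1.continuousOn).sub hfc).aemeasurable hΩ.measurableSet).enorm).pow_const p
  calc ∫⁻ x in Ω, ‖fderiv ℝ g x‖ₑ ^ p
      ≤ ∫⁻ x in Ω, (K * ((‖g x - f x‖ₑ ^ p + ‖fderiv ℝ g x - G x‖ₑ ^ p) + ‖G x‖ₑ ^ p)) :=
        lintegral_mono fun x => by
          calc ‖fderiv ℝ g x‖ₑ ^ p ≤ (‖fderiv ℝ g x - G x‖ₑ + ‖G x‖ₑ) ^ p := by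
                refine ENNReal.rpow_le_rpow ?_ hp0
                simpa using enorm_add_le (fderiv ℝ g x - G x) (G x)
            _ ≤ K * (‖fderiv ℝ g x - G x‖ₑ ^ p + ‖G x‖ₑ ^ p) :=
                ENNReal.rpow_add_le_mul_rpow_add_rpow _ _ hp
            _ ≤ _ := by gcongr; exact le_add_self
    _ = K * ((∫⁻ x in Ω, (‖g x - f x‖ₑ ^ p + ‖fderiv ℝ g x - G x‖ₑ ^ p)) +
          (∫⁻ x in Ω, ‖G x‖ₑ ^ p)) := by
        rw [lintegral_const_mul' _ _ hKtop,
          lintegral_add_right' _ (hGm.enorm.pow_const p)]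
    _ < ∞ := ENNReal.mul_lt_top hKtop.lt_top
        (ENNReal.add_lt_top.2 ⟨htot.trans_le le_top, hGfin⟩)

end Vale.Agent.P073.Squeeze
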