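import Mathlib

/-!
# A radial profile that squeezes all energy of a ball to its outer shell
-/

namespace Vale.Agent.P073.Squeeze

open Real Filter Topology Set

/-- A smooth cutoff, one up to `9/16`, zero from `1` on. -/
noncomputable def cut (s : ℝ) : ℝ := 1 - smoothTransition ((16 * s - 9) / 7)

/-- The inner profile, as a function of the squared radius. -/
noncomputable def inner' (ε k s : ℝ) : ℝ :=
  1 / 4 * (s + ε) ^ (-(1 / 2) : ℝ) + 1 / 8 * (s + ε) ^ ((k - 1) / 2)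

/-- The derivative of the inner profile. -/
noncomputable def innerD (ε k s : ℝ) : ℝ :=
  -(1 / 8) * (s + ε) ^ (-(3 / 2) : ℝ) + 1 / 8 * ((k - 1) / 2) * (s + ε) ^ ((k - 3) / 2)

/-- The stretching factor. -/
noncomputable def fac (ε k s : ℝ) : ℝ := 1 + cut s * (inner' ε k s - 1)

/-- Its derivative. -/
noncomputable def facD (ε k s : ℝ) : ℝ :=
  deriv cut s * (inner' ε k s - 1) + cut s * innerD ε k s

theorem cut_nonneg (s : ℝ) : 0 ≤ cut s := sub_nonneg.2 (smoothTransition.le_one _)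

theorem cut_le_one (s : ℝ) : cut s ≤ 1 := sub_le_self _ (smoothTransition.nonneg _)

theorem cut_eq_one {s : ℝ} (h : s ≤ 9 / 16) : cut s = 1 := by
  simp [cut, smoothTransition.zero_of_nonpos (show (16 * s - 9) / 7 ≤ 0 by linarith)]

theorem cut_eq_zero {s : ℝ} (h : 1 ≤ s) : cut s = 0 := by
  simp [cut, smoothTransition.one_of_one_le (show 1 ≤ (16 * s - 9) / 7 by linarith)]

theorem cut_contDiff {n : ℕ∞} : ContDiff ℝ n cut :=
  contDiff_const.sub (smoothTransition.contDiff.comp (by fun_prop))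

theorem cut_deriv_nonpos (s : ℝ) : deriv cut s ≤ 0 :=
  Antitone.deriv_nonpos fun a b h => by
    unfold cut
    gcongr
    exact smoothTransition.monotone (by linarith)

theorem cut_deriv_eq_zero {s : ℝ} (h : s < 9 / 16) : deriv cut s = 0 := by
  have : cut =ᶠ[𝓝 s] fun _ => 1 := by
    filter_upwards [Iio_mem_nhds h] with t ht using cut_eq_one (le_of_lt ht)
  simp [this.deriv_eq]

theorem inner'_hasDerivAt {ε k s : ℝ} (h : 0 < s + ε) :
    HasDerivAt (inner' ε k) (innerD ε k s) s := by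
  have h1 : HasDerivAt (fun t : ℝ => t + ε) 1 s := (hasDerivAt_id s).add_const ε
  refine (((h1.rpow_const (p := (-(1 / 2) : ℝ)) (Or.inl h.ne')).const_mul (1 / 4 : ℝ)).add
    ((h1.rpow_const (p := (k - 1) / 2) (Or.inl h.ne')).const_mul (1 / 8 : ℝ))).congr_deriv ?_
  rw [innerD, show (-(1 / 2) : ℝ) - 1 = -(3 / 2) by norm_num,
    show (k - 1) / 2 - 1 = (k - 3) / 2 by ring]
  ring

theorem fac_hasDerivAt {ε k s : ℝ} (h : 0 < s + ε) :
    HasDerivAt (fac ε k) (facD ε k s) s := by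
  have hc : HasDerivAt cut (deriv cut s) s :=
    ((cut_contDiff (n := 1)).differentiable one_ne_zero).differentiableAt.hasDerivAt
  exact (hc.mul ((inner'_hasDerivAt (k := k) h).sub_const 1)).const_add 1

theorem fac_contDiffAt {ε k s : ℝ} (h : 0 < s + ε) {n : ℕ∞} : ContDiffAt ℝ n (fac ε k) s := by
  have h1 : ∀ e : ℝ, ContDiffAt ℝ n (fun t : ℝ => (t + ε) ^ e) s := fun e =>
    (contDiffAt_id.add contDiffAt_const).rpow_const_of_ne h.ne'
  exact contDiffAt_const.add (cut_contDiff.contDiffAt.mul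
    (((contDiffAt_const.mul (h1 _)).add (contDiffAt_const.mul (h1 _))).sub contDiffAt_const))

variable {ε k s : ℝ}

theorem inner'_le_half (hε : 0 < ε) (hk : 0 ≤ k) (hk1 : k ≤ 1) (hs : 0 ≤ s) (hu : s + ε ≤ 2) :
    inner' ε k s ≤ 1 / 2 * (s + ε) ^ (-(1 / 2) : ℝ) := by
  have h : 0 < s + ε := by linarith
  have h1 : (s + ε) ^ ((k - 1) / 2) = (s + ε) ^ (k / 2) * (s + ε) ^ (-(1 / 2) : ℝ) := by
    rw [← rpow_add h]; ring_nf
  have h2 : (s + ε) ^ (k / 2) ≤ 2 :=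
    (rpow_le_rpow h.le hu (by linarith)).trans
      ((rpow_le_rpow_of_exponent_le one_le_two (by linarith : k / 2 ≤ 1)).trans_eq (rpow_one 2))
  have h3 := rpow_nonneg h.le (-(1 / 2) : ℝ)
  rw [inner', h1]
  nlinarith

theorem quarter_le_inner' (hs : 0 < s + ε) :
    1 / 4 * (s + ε) ^ (-(1 / 2) : ℝ) ≤ inner' ε k s := by
  have := rpow_nonneg hs.le ((k - 1) / 2)
  rw [inner']; linarith

theorem inner'_le_one (hε : 0 < ε) (hk : 0 ≤ k) (hk1 : k ≤ 1) (hs : 9 / 16 ≤ s) :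
    inner' ε k s ≤ 1 := by
  have h0 : (9 / 16 : ℝ) ≤ s + ε := by linarith
  have e0 : (9 / 16 : ℝ) ^ (-(1 / 2) : ℝ) = 4 / 3 := by
    rw [rpow_neg (by norm_num), ← sqrt_eq_rpow, show (9 / 16 : ℝ) = (3 / 4) ^ 2 by norm_num,
      sqrt_sq (by norm_num)]
    norm_num
  have h1 : (s + ε) ^ (-(1 / 2) : ℝ) ≤ 4 / 3 :=
    (rpow_le_rpow_of_nonpos (by norm_num) h0 (by norm_num)).trans_eq e0
  have h2 : (s + ε) ^ ((k - 1) / 2) ≤ 4 / 3 :=
    (rpow_le_rpow_of_nonpos (by norm_num) h0 (by linarith)).trans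
      ((rpow_le_rpow_of_exponent_ge (by norm_num) (by norm_num) (by linarith)).trans_eq e0)
  rw [inner']; linarith

theorem innerD_nonpos (hk1 : k ≤ 1) (h : 0 < s + ε) : innerD ε k s ≤ 0 := by
  have h1 := rpow_nonneg h.le (-(3 / 2) : ℝ)
  have h2 := rpow_nonneg h.le ((k - 3) / 2)
  rw [innerD]; nlinarith

theorem slope_eq (h : 0 < s + ε) :
    inner' ε k s + 2 * s * innerD ε k s =
      1 / 4 * ε * (s + ε) ^ (-(3 / 2) : ℝ) + 1 / 8 * (k * s + ε) * (s + ε) ^ ((k - 3) / 2) := by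
  rw [inner', innerD, show (-(1 / 2) : ℝ) = 1 + -(3 / 2) by norm_num,
    show (k - 1) / 2 = 1 + (k - 3) / 2 by ring, rpow_add h, rpow_add h, rpow_one]
  ring

theorem slope_ge (hε : 0 < ε) (hk : 0 ≤ k) (hk1 : k ≤ 1) (hs : 0 ≤ s) :
    1 / 8 * k * (s + ε) ^ ((k - 1) / 2) ≤ inner' ε k s + 2 * s * innerD ε k s ∧
    1 / 4 * ε * (s + ε) ^ (-(3 / 2) : ℝ) ≤ inner' ε k s + 2 * s * innerD ε k s := by
  have h : 0 < s + ε := by linarith
  have h1 := rpow_nonneg h.le (-(3 / 2) : ℝ)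
  have h2 := rpow_nonneg h.le ((k - 3) / 2)
  rw [slope_eq h, show (k - 1) / 2 = 1 + (k - 3) / 2 by ring, rpow_add h, rpow_one]
  constructor <;> nlinarith [mul_nonneg hε.le h1, mul_nonneg (mul_nonneg hε.le h2)
    (sub_nonneg.2 hk1), mul_nonneg (mul_nonneg hk hs) h2]

/-- The radial derivative of `t ↦ t * fac (t ^ 2)` is positive and controls everything. -/
theorem radial_bounds (hε : 0 < ε) (hk : 0 < k) (hk1 : k ≤ 1) (hs : 0 ≤ s) :
    (1 - cut s) + cut s * (inner' ε k s + 2 * s * innerD ε k s) ≤ fac ε k s + 2 * s * facD ε k s ∧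
    0 < fac ε k s + 2 * s * facD ε k s ∧ 0 < fac ε k s := by
  have h : 0 < s + ε := by linarith
  have e : fac ε k s + 2 * s * facD ε k s = (1 - cut s)
      + cut s * (inner' ε k s + 2 * s * innerD ε k s)
      + 2 * s * (deriv cut s * (inner' ε k s - 1)) := by
    rw [fac, facD]; ring
  have h1 : 0 ≤ deriv cut s * (inner' ε k s - 1) := by
    rcases lt_or_ge s (9 / 16) with h' | h'
    · simp [cut_deriv_eq_zero h']
    · exact mul_nonneg_of_nonpos_of_nonpos (cut_deriv_nonpos s)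
        (by linarith [inner'_le_one hε hk.le hk1 h'])
  have h2 : 0 < inner' ε k s + 2 * s * innerD ε k s :=
    lt_of_lt_of_le (by positivity) (slope_ge hε hk.le hk1 hs).1
  have h3 : 0 < inner' ε k s :=
    lt_of_lt_of_le (by positivity) (quarter_le_inner' h)
  have hc := cut_nonneg s
  have hc1 := cut_le_one s
  refine ⟨by nlinarith, ?_, ?_⟩
  · rcases lt_or_eq_of_le hc1 with h' | h'
    · nlinarith [mul_nonneg hs h1, mul_nonneg hc h2.le]
    · nlinarith [mul_nonneg hs h1]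
  · rcases lt_or_eq_of_le hc1 with h' | h'
    · rw [fac]; nlinarith [mul_nonneg hc h3.le]
    · rw [fac, h']; linarith

theorem size_bounds {M : ℝ} (hM : ∀ t ∈ Icc (0 : ℝ) 1, |deriv cut t| ≤ M) (hε : 0 < ε)
    (hε1 : ε ≤ 1) (hk : 0 < k) (hk1 : k ≤ 1) (hs : 0 ≤ s) (hs1 : s ≤ 1) :
    1 / 4 * (s + ε) ^ (-(1 / 2) : ℝ) ≤ fac ε k s ∧
    2 * fac ε k s + (fac ε k s + 2 * s * facD ε k s) ≤
      (10 + 4 * M) * (s + ε) ^ (-(1 / 2) : ℝ) := by
  have h : 0 < s + ε := by linarith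
  have hu : s + ε ≤ 2 := by linarith
  have hw2 : 2 / 3 ≤ (s + ε) ^ (-(1 / 2) : ℝ) := by
    rw [rpow_neg h.le, ← sqrt_eq_rpow, le_inv_comm₀ (by norm_num) (sqrt_pos.2 h)]
    exact sqrt_le_iff.2 ⟨by norm_num, by linarith⟩
  have hA1 := inner'_le_half hε hk.le hk1 hs hu
  have hA2 := quarter_le_inner' (k := k) h
  have hA3 := innerD_nonpos (s := s) hk1 h
  have hd := hM s ⟨hs, hs1⟩
  set w := (s + ε) ^ (-(1 / 2) : ℝ)
  set A := inner' ε k s
  have hc := cut_nonneg s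
  have hc1 := cut_le_one s
  have hM0 : 0 ≤ M := (abs_nonneg _).trans hd
  have hm2 : fac ε k s ≤ 2 * w := by rw [fac]; nlinarith
  refine ⟨?_, ?_⟩
  · rcases lt_or_ge s (9 / 16) with h' | h'
    · rw [fac, cut_eq_one h'.le]; linarith
    · have := inner'_le_one hε hk.le hk1 h'
      rw [fac]; nlinarith
  · have h1 : |A - 1| ≤ 2 * w := abs_le.2 (by constructor <;> linarith)
    have h2 : deriv cut s * (A - 1) ≤ M * (2 * w) :=
      (le_abs_self _).trans ((abs_mul _ _).trans_le (mul_le_mul hd h1 (abs_nonneg _) hM0))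
    have h3 : s * (deriv cut s * (A - 1)) ≤ M * (2 * w) := by
      refine (mul_le_mul_of_nonneg_left h2 hs).trans ?_
      exact mul_le_of_le_one_left (by positivity) hs1
    have h4 : s * (cut s * innerD ε k s) ≤ 0 :=
      mul_nonpos_of_nonneg_of_nonpos hs (mul_nonpos_of_nonneg_of_nonpos hc hA3)
    have h5 : s * facD ε k s ≤ M * (2 * w) := by rw [facD, mul_add]; linarith
    linarith

theorem outer_bound (hε : 0 < ε) (hk : 0 < k) (hk1 : k ≤ 1) (hs : 0 ≤ s)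
    {p : ℝ} (hp : 1 ≤ p) (hkp : k ≤ 3 - p) (hs1 : s ≤ 1) (hε1 : ε ≤ 1)
    (hm1 : 1 / 4 * (s + ε) ^ (-(1 / 2) : ℝ) ≤ fac ε k s) :
    (s + ε) ^ (-(p / 2)) ≤ 512 / k * (fac ε k s ^ 2 * (fac ε k s + 2 * s * facD ε k s)) := by
  have h : 0 < s + ε := by linarith
  obtain ⟨hlow, hP, hm⟩ := radial_bounds hε hk hk1 hs
  set P := fac ε k s + 2 * s * facD ε k s
  set z := (s + ε) ^ ((k - 1) / 2) with hz
  have hz0 : 0 ≤ z := rpow_nonneg h.le _
  have hP1 : k / 16 * z ≤ P := by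
    refine le_trans ?_ hlow
    have hs' := (slope_ge hε hk.le hk1 hs).1
    rcases lt_or_ge s (9 / 16) with h' | h'
    · rw [cut_eq_one h'.le]; nlinarith
    · have hb : z ≤ 8 := by
        have hA := inner'_le_one hε hk.le hk1 h'
        rw [inner'] at hA
        linarith [rpow_nonneg h.le (-(1 / 2) : ℝ)]
      rw [← hz] at hs'
      have h6 : cut s * (k / 16 * z) ≤ cut s * (inner' ε k s + 2 * s * innerD ε k s) :=
        mul_le_mul_of_nonneg_left (by nlinarith) (cut_nonneg s)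
      have h7 : (1 - cut s) * (k / 16 * z) ≤ (1 - cut s) * 1 :=
        mul_le_mul_of_nonneg_left (by nlinarith) (sub_nonneg.2 (cut_le_one s))
      linarith
  set w := (s + ε) ^ (-(1 / 2) : ℝ) with hw
  have hw0 : 0 ≤ w := rpow_nonneg h.le _
  have hJ : (1 / 4 * w) ^ 2 * (k / 16 * z) ≤ fac ε k s ^ 2 * P :=
    mul_le_mul (pow_le_pow_left₀ (by positivity) hm1 2) hP1 (by positivity) (by positivity)
  have hexp : (s + ε) ^ (-(p / 2)) ≤ 2 * (w ^ 2 * z) := by
    have e : (s + ε) ^ (-(p / 2)) = (s + ε) ^ ((3 - p - k) / 2) * (w ^ 2 * z) := by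
      rw [hw, hz, ← rpow_natCast, ← rpow_mul h.le, ← rpow_add h, ← rpow_add h]; ring_nf
    rw [e]
    refine mul_le_mul_of_nonneg_right ?_ (by positivity)
    exact (rpow_le_rpow h.le (show s + ε ≤ 2 by linarith) (by linarith)).trans
      ((rpow_le_rpow_of_exponent_le one_le_two
        (by linarith : (3 - p - k) / 2 ≤ 1)).trans_eq (rpow_one 2))
  calc (s + ε) ^ (-(p / 2)) ≤ 2 * (w ^ 2 * z) := hexp
    _ = 512 / k * ((1 / 4 * w) ^ 2 * (k / 16 * z)) := by field_simp; ring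
    _ ≤ _ := mul_le_mul_of_nonneg_left hJ (by positivity)

theorem inner_bound (hε : 0 < ε) (hk : 0 < k) (hk1 : k ≤ 1) (hs : 0 ≤ s)
    {p : ℝ} (hp : 1 ≤ p) (hp3 : p < 3) (hs1 : s ≤ 1) (hε1 : ε ≤ 1)
    (hm1 : 1 / 4 * (s + ε) ^ (-(1 / 2) : ℝ) ≤ fac ε k s)
    (hsmall : s * fac ε k s ^ 2 < (1 / 8) ^ 2) :
    (s + ε) ^ (-(p / 2)) ≤
      256 * ε ^ ((3 - p) / 2) * (fac ε k s ^ 2 * (fac ε k s + 2 * s * facD ε k s)) := by
  have h : 0 < s + ε := by linarith
  obtain ⟨hlow, hP, hm⟩ := radial_bounds hε hk hk1 hs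
  set P := fac ε k s + 2 * s * facD ε k s
  set w := (s + ε) ^ (-(1 / 2) : ℝ) with hw
  have hw0 : 0 ≤ w := rpow_nonneg h.le _
  have hwu : w ^ 2 * (s + ε) = 1 := by
    rw [hw, ← rpow_natCast, ← rpow_mul h.le, ← rpow_add_one h.ne']; norm_num
  have h5 : s * (1 / 4 * w) ^ 2 < (1 / 8) ^ 2 :=
    lt_of_le_of_lt (mul_le_mul_of_nonneg_left (pow_le_pow_left₀ (by positivity) hm1 2) hs) hsmall
  have h3s : 3 * s < ε := by
    have h6 := mul_lt_mul_of_pos_right h5 h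
    have h7 : s * (1 / 4 * w) ^ 2 * (s + ε) = s / 16 := by
      rw [show s * (1 / 4 * w) ^ 2 * (s + ε) = s / 16 * (w ^ 2 * (s + ε)) by ring, hwu, mul_one]
    linarith
  have hs9 : s < 9 / 16 := by linarith
  set t := (s + ε) ^ (-(3 / 2) : ℝ) with ht
  have ht0 : 0 ≤ t := rpow_nonneg h.le _
  have hwt : w = t * (s + ε) := by rw [hw, ht, ← rpow_add_one h.ne']; norm_num
  have hw3 : t = w ^ 2 * w := by
    rw [hwt]
    calc t = t * (w ^ 2 * (s + ε)) := by rw [hwu, mul_one]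
      _ = _ := by rw [hwt]; ring
  have hP1 : 1 / 8 * w ≤ P := by
    refine le_trans ?_ hlow
    rw [cut_eq_one hs9.le, hwt]
    have h6 := (slope_ge hε hk.le hk1 hs).2
    have h8 : t * (3 * s) ≤ t * ε := mul_le_mul_of_nonneg_left h3s.le ht0
    rw [← ht] at h6
    linarith [mul_nonneg ht0 hs]
  have hJ : (1 / 4 * w) ^ 2 * (1 / 8 * w) ≤ fac ε k s ^ 2 * P :=
    mul_le_mul (pow_le_pow_left₀ (by positivity) hm1 2) hP1 (by positivity) (by positivity)
  have hexp : (s + ε) ^ (-(p / 2)) ≤ 2 * ε ^ ((3 - p) / 2) * t := by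
    rw [ht, show -(p / 2) = (3 - p) / 2 + -(3 / 2) by ring, rpow_add h]
    refine mul_le_mul_of_nonneg_right ?_ (rpow_nonneg h.le _)
    refine (rpow_le_rpow h.le (show s + ε ≤ 2 * ε by linarith) (by linarith)).trans ?_
    rw [mul_rpow zero_le_two hε.le]
    refine mul_le_mul_of_nonneg_right ?_ (rpow_nonneg hε.le _)
    exact (rpow_le_rpow_of_exponent_le one_le_two
      (by linarith : (3 - p) / 2 ≤ 1)).trans_eq (rpow_one 2)
  calc (s + ε) ^ (-(p / 2)) ≤ 2 * ε ^ ((3 - p) / 2) * t := hexp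
    _ = 256 * ε ^ ((3 - p) / 2) * ((1 / 4 * w) ^ 2 * (1 / 8 * w)) := by rw [hw3]; ring
    _ ≤ _ := mul_le_mul_of_nonneg_left hJ (by positivity)

/-- The pointwise distortion estimates. -/
theorem exists_distortion (p : ℝ) (hp : 1 ≤ p) (hp3 : p < 3) (hk : 0 < k) (hk1 : k ≤ 1)
    (hkp : k ≤ 3 - p) :
    ∃ C, 0 < C ∧ ∀ ε s : ℝ, 0 < ε → ε ≤ 1 → 0 ≤ s → s ≤ 1 →
      (2 * fac ε k s + (fac ε k s + 2 * s * facD ε k s)) ^ p ≤
        C * (fac ε k s ^ 2 * (fac ε k s + 2 * s * facD ε k s)) ∧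
      (s * fac ε k s ^ 2 < (1 / 8) ^ 2 →
        (2 * fac ε k s + (fac ε k s + 2 * s * facD ε k s)) ^ p ≤
          C * ε ^ ((3 - p) / 2) * (fac ε k s ^ 2 * (fac ε k s + 2 * s * facD ε k s))) := by
  obtain ⟨M, hM⟩ := (isCompact_Icc (a := (0 : ℝ)) (b := 1)).exists_bound_of_continuousOn
    ((cut_contDiff (n := 1)).continuous_deriv le_rfl).continuousOn
  have hK0 : 0 < 10 + 4 * M := by linarith [(norm_nonneg _).trans (hM 0 (by simp))]
  refine ⟨(10 + 4 * M) ^ p * (512 / k), by positivity, fun ε s hε hε1 hs hs1 => ?_⟩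
  have h : 0 < s + ε := by linarith
  obtain ⟨-, hP, hm⟩ := radial_bounds hε hk hk1 hs
  obtain ⟨hm1, hsize⟩ := size_bounds (fun t ht => (Real.norm_eq_abs _).symm.trans_le (hM t ht))
    hε hε1 hk hk1 hs hs1
  have hS : (2 * fac ε k s + (fac ε k s + 2 * s * facD ε k s)) ^ p ≤
      (10 + 4 * M) ^ p * (s + ε) ^ (-(p / 2)) := by
    refine (rpow_le_rpow (by linarith) hsize (by linarith)).trans_eq ?_
    rw [mul_rpow hK0.le (rpow_nonneg h.le _), ← rpow_mul h.le]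
    ring_nf
  refine ⟨hS.trans ?_, fun hsmall => hS.trans ?_⟩
  · rw [mul_assoc]
    exact mul_le_mul_of_nonneg_left (outer_bound hε hk hk1 hs hp hkp hs1 hε1 hm1) (by positivity)
  · rw [mul_assoc, mul_assoc]
    refine mul_le_mul_of_nonneg_left ?_ (by positivity)
    refine (inner_bound hε hk hk1 hs hp hp3 hs1 hε1 hm1 hsmall).trans ?_
    rw [mul_assoc]
    refine mul_le_mul_of_nonneg_right ?_ (by positivity)
    rw [le_div_iff₀ hk]; linarith

end Vale.Agent.P073.Squeeze
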